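import Vale.Agent.P173.Core
import Vale.Agent.P173.Tietze
import Vale.Agent.P173.SlabAcyc
import Vale.Agent.P173.FamBB
import Vale.Agent.P173.Poincare
import Vale.Agent.P173.Cd
import Vale.Agent.P173.Bridge
import Vale.Agent.P173.LemY
import Vale.Agent.P173.Indep

namespace Vale.Agent.Results.P173.EG

open Vale.Agent.P173

universe u v

theorem result : ∃ (Γ : Type) (_ : Group Γ),
    CategoryTheory.projectiveDimension
      (ModuleCat.of (MonoidAlgebra ℤ Γ) (Representation.trivial ℤ Γ ℤ).asModule) = 2 ∧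
    ∀ (X : Type u) [TopologicalSpace X] [T2Space X] [ConnectedSpace X]
      [Topology.CWComplex (Set.univ : Set X)],
      (∀ n, 2 < n → IsEmpty (Topology.CWComplex.cell (Set.univ : Set X) n)) →
      ∀ x : X, Nonempty (FundamentalGroup X x ≃* Γ) →
      ∀ (Y : Type v) [TopologicalSpace Y] (p : Y → X), IsCoveringMap p →
        ¬ContractibleSpace Y := by
  obtain ⟨G, hG⟩ := exists_good
  have hA := acyc_BB hG 0
  refine ⟨BB G, inferInstance, cd_eq_two hA (not_indep hG 0), ?_⟩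
  rintro X _ _ _ _ hdim x ⟨φ⟩ Y _ p cov hY
  obtain ⟨A, C₂, Φ₂, B, C₁, Φ₁, h₂, h₁, hd⟩ := bridge X hdim
  have := cov_t2 cov
  obtain ⟨S⟩ := exists_setup cov (cov_surj cov) x φ h₂ h₁ hd
  obtain ⟨r', hP⟩ := tietze_pres ⟨S.surj, S.ker, S.inj⟩ (bS G 0)
  obtain ⟨κ, hK⟩ := tietze_kap hA S.a
  exact core hP hK fun ε hε => (exists_fam hG 0 hε).elim fun F => tietze_fam F S.a

end Vale.Agent.Results.P173.EG
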